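import Vale.Agent.P211.Cert.Contact.Data.N2x11H
import Vale.Agent.P211.Cert.Contact.Tools
import Vale.Agent.P211.Cert.Vector

/-!
P211, charts of the contact family (generated).
-/

namespace Vale.Agent.P211.Cert.Contact.Data

open Vale.Agent.P098.Check6 (ofChunks eqList reach St Cfg Face)
open Vale.Agent.P098.Cert6.Kron (RootPar parOK Deg)

noncomputable section

/-- The degree. -/
def dN2_01 : Deg := (28, 18, 32, 0)

/-- The parameters. -/
def parN2_01 : RootPar := ⟨459, 72, 15, 336, 0x80000000000000000000000000000000000000000000000000000000000000000000000000000000000000000, 0x1000000000, (80313433200, 12252240, 4375865239200, 1)⟩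

/-- The faces. -/
def fsN2_01 : List Face := []

/-- The root test. -/
theorem hallN2_01 :
    Check.rootsOK parN2_01 dN2_01 (polys vecV near2 ⟨0, 1, 1⟩ (commonQ ((near2).entries vecV ⟨0, 1, 1⟩ ++ (near2).cons)) dN2_01) fsN2_01 = true := by
  decide +kernel

end

end Vale.Agent.P211.Cert.Contact.Data
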